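import Vale.Agent.Lib.P160.Sparse2

namespace Vale.Agent.Lib.P160

open Finset Matrix

section

variable {ι : Type*} [Fintype ι] [DecidableEq ι]

/-- Restriction of a vector to the coordinates different from `i`, as a linear map. -/
noncomputable def dropL (i : ι) : (ι → ℝ) →ₗ[ℝ] ({k // k ≠ i} → ℝ) :=
  LinearMap.funLeft ℝ ℝ (Subtype.val : {k // k ≠ i} → ι)

omit [Fintype ι] [DecidableEq ι] in
theorem dropL_apply (i : ι) (u : ι → ℝ) (k : {k // k ≠ i}) : dropL i u k = u k.1 := rfl

omit [Fintype ι] [DecidableEq ι] in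
theorem dropL_eq (i : ι) (u : ι → ℝ) : dropL i u = fun k : {k // k ≠ i} => u k.1 := rfl

omit [Fintype ι] [DecidableEq ι] in
/-- Two vectors vanishing at `i` with the same restriction are equal. -/
theorem eq_of_dropL_eq {i : ι} {u w : ι → ℝ} (hu : u i = 0) (hw : w i = 0)
    (h : dropL i u = dropL i w) : u = w := by
  classical
  funext j
  by_cases hj : j = i
  · subst hj
    rw [hu, hw]
  · exact congrFun h ⟨j, hj⟩

/-- A vector of the annihilator which vanishes at `i` restricts to the annihilator of the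
restricted matrix. -/
theorem isAnn_restr_of_zero {T R : Finset ι} {i : ι} {A : Matrix ι ι ℤˣ} {u : ι → ℝ}
    (h : IsAnn T R A u) (hi : u i = 0) :
    IsAnn (T.subtype (· ≠ i)) (R.subtype (· ≠ i)) (restr i A) (fun k => u k.1) := by
  refine ⟨fun k hk => h.1 k.1 (by simpa using hk), fun r hr => ?_⟩
  have h1 := h.2 r.1 (by simpa using hr)
  rw [← sdot_restr i (A r.1) u hi] at h1
  exact h1

omit [DecidableEq ι] in
/-- Symmetry of the bilinear form of a symmetric sign matrix. -/
theorem sum_mul_sdot_symm [DecidableEq ι] {A : Matrix ι ι ℤˣ} (hA : A ∈ symSet ι)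
    (u w : ι → ℝ) :
    ∑ t, w t * sdot (A t) u = ∑ j, u j * sdot (A j) w := by
  unfold sdot
  simp only [Finset.mul_sum]
  rw [Finset.sum_comm]
  refine Finset.sum_congr rfl fun j _ => Finset.sum_congr rfl fun t _ => ?_
  rw [mem_symSet.1 hA t j]
  ring

omit [Fintype ι] [DecidableEq ι] in
/-- If every vector of `S` vanishes at `i` and restricts into `S'`, then `dim S ≤ dim S'`. -/
theorem finrank_le_of_dropL {i : ι} (S : Submodule ℝ (ι → ℝ))
    (S' : Submodule ℝ ({k // k ≠ i} → ℝ)) [Module.Finite ℝ S']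
    (h0 : ∀ u ∈ S, u i = 0) (hS : ∀ u ∈ S, dropL i u ∈ S') :
    Module.finrank ℝ S ≤ Module.finrank ℝ S' := by
  let f : S →ₗ[ℝ] S' := LinearMap.codRestrict S' ((dropL i).domRestrict S) fun c => hS c.1 c.2
  refine LinearMap.finrank_le_finrank_of_injective (f := f) ?_
  intro a b hab
  have h1 : dropL i a.1 = dropL i b.1 := congrArg Subtype.val hab
  exact Subtype.ext (eq_of_dropL_eq (h0 a.1 a.2) (h0 b.1 b.2) h1)

omit [DecidableEq ι] in
/-- Strict version: if moreover some vector of `S'` is not a restriction of a vector of `S`. -/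
theorem finrank_lt_of_dropL {i : ι} (S : Submodule ℝ (ι → ℝ))
    (S' : Submodule ℝ ({k // k ≠ i} → ℝ))
    (h0 : ∀ u ∈ S, u i = 0) (hS : ∀ u ∈ S, dropL i u ∈ S')
    {u0 : {k // k ≠ i} → ℝ} (hu0 : u0 ∈ S') (hnot : ∀ u ∈ S, dropL i u ≠ u0) :
    Module.finrank ℝ S < Module.finrank ℝ S' := by
  let f : S →ₗ[ℝ] ({k // k ≠ i} → ℝ) := (dropL i).domRestrict S
  have hinj : Function.Injective f := by
    intro a b hab
    exact Subtype.ext (eq_of_dropL_eq (h0 a.1 a.2) (h0 b.1 b.2) hab)
  have hr : Module.finrank ℝ (LinearMap.range f) = Module.finrank ℝ S :=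
    LinearMap.finrank_range_of_inj hinj
  have hlt : LinearMap.range f < S' := by
    refine lt_of_le_of_ne ?_ ?_
    · rintro x ⟨c, rfl⟩
      exact hS c.1 c.2
    · intro heq
      have : u0 ∈ LinearMap.range f := by
        rw [heq]
        exact hu0
      obtain ⟨c, hc⟩ := this
      exact hnot c.1 c.2 hc
  rw [← hr]
  exact Submodule.finrank_lt_finrank_of_lt hlt

/-- Deleting one index lowers the corank of the principal block by at most one. -/
theorem corank_le_succ {T : Finset ι} {i : ι} (A : Matrix ι ι ℤˣ) :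
    Module.finrank ℝ (annSub T T A) ≤
      Module.finrank ℝ (annSub (T.subtype (· ≠ i)) (T.subtype (· ≠ i)) (restr i A)) + 1 := by
  let g : annSub T T A →ₗ[ℝ] ℝ := (LinearMap.proj i).comp (annSub T T A).subtype
  have h1 := LinearMap.finrank_range_add_finrank_ker g
  have h2 : Module.finrank ℝ (LinearMap.range g) ≤ 1 := by
    have := Submodule.finrank_le (LinearMap.range g)
    simpa using this
  have h3 : Module.finrank ℝ (LinearMap.ker g) ≤
      Module.finrank ℝ (annSub (T.subtype (· ≠ i)) (T.subtype (· ≠ i)) (restr i A)) := by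
    have hmem : ∀ c : LinearMap.ker g, dropL i c.1.1 ∈
        annSub (T.subtype (· ≠ i)) (T.subtype (· ≠ i)) (restr i A) := by
      intro c
      have hc : c.1.1 i = 0 := LinearMap.mem_ker.1 c.2
      exact isAnn_restr_of_zero c.1.2 hc
    let f : LinearMap.ker g →ₗ[ℝ]
        annSub (T.subtype (· ≠ i)) (T.subtype (· ≠ i)) (restr i A) :=
      LinearMap.codRestrict _
        ((dropL i).comp ((annSub T T A).subtype.comp (LinearMap.ker g).subtype)) hmem
    refine LinearMap.finrank_le_finrank_of_injective (f := f) ?_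
    intro a b hab
    have ha : a.1.1 i = 0 := LinearMap.mem_ker.1 a.2
    have hb : b.1.1 i = 0 := LinearMap.mem_ker.1 b.2
    have h4 : dropL i a.1.1 = dropL i b.1.1 := congrArg Subtype.val hab
    exact Subtype.ext (Subtype.ext (eq_of_dropL_eq ha hb h4))
  omega

/-- If some annihilating vector of the restricted block is not orthogonal to row `i`, then
deleting the index `i ∈ T` strictly raises the corank. -/
theorem corank_succ_le {T : Finset ι} {i : ι} (hi : i ∈ T) {A : Matrix ι ι ℤˣ}
    (hA : A ∈ symSet ι) {u0 : {k // k ≠ i} → ℝ}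
    (hu0 : u0 ∈ annSub (T.subtype (· ≠ i)) (T.subtype (· ≠ i)) (restr i A))
    (hne : sdot (A i) (extV i u0) ≠ 0) :
    Module.finrank ℝ (annSub T T A) + 1 ≤
      Module.finrank ℝ (annSub (T.subtype (· ≠ i)) (T.subtype (· ≠ i)) (restr i A)) := by
  have hw : IsAnn T (T.erase i) A (extV i u0) := by
    refine ⟨fun j hj => ?_, fun r hr => ?_⟩
    · by_cases hji : j = i
      · subst hji
        exact extV_self _ u0
      · have := hu0.1 ⟨j, hji⟩ (by simpa using hj)
        rw [← this]
        exact extV_ne i u0 ⟨j, hji⟩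
    · have hri : r ≠ i := Finset.ne_of_mem_erase hr
      rw [sdot_extV]
      exact hu0.2 ⟨r, hri⟩ (by simpa using Finset.mem_of_mem_erase hr)
  have h0 : ∀ u ∈ annSub T T A, u i = 0 := by
    intro u hu
    have hsym := sum_mul_sdot_symm hA u (extV i u0)
    have hL : ∑ t, extV i u0 t * sdot (A t) u = 0 := by
      refine Finset.sum_eq_zero fun t _ => ?_
      by_cases ht : t ∈ T
      · rw [hu.2 t ht, mul_zero]
      · rw [hw.1 t ht, zero_mul]
    have hR : ∑ j, u j * sdot (A j) (extV i u0) = u i * sdot (A i) (extV i u0) := by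
      refine Finset.sum_eq_single i (fun j _ hji => ?_) (fun h => absurd (Finset.mem_univ i) h)
      by_cases hj : j ∈ T
      · rw [hw.2 j (Finset.mem_erase.2 ⟨hji, hj⟩), mul_zero]
      · rw [hu.1 j hj, zero_mul]
    rw [hL, hR] at hsym
    rcases mul_eq_zero.1 hsym.symm with h | h
    · exact h
    · exact absurd h hne
  refine finrank_lt_of_dropL (annSub T T A) _ h0
    (fun u hu => isAnn_restr_of_zero hu (h0 u hu)) hu0 ?_
  intro u hu hdrop
  have hext : extV i u0 = u := by
    funext j
    by_cases hji : j = i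
    · subst hji
      rw [extV_self, h0 u hu]
    · rw [← hdrop]
      exact extV_ne i (dropL i u) ⟨j, hji⟩
  rw [hext] at hne
  exact hne (hu.2 i hi)

/-- Deleting an index outside `T` does not lower the corank of the principal block. -/
theorem corank_restr_of_notMem {T : Finset ι} {i : ι} (hi : i ∉ T) (A : Matrix ι ι ℤˣ) :
    Module.finrank ℝ (annSub T T A) ≤
      Module.finrank ℝ (annSub (T.subtype (· ≠ i)) (T.subtype (· ≠ i)) (restr i A)) := by
  have h0 : ∀ u ∈ annSub T T A, u i = 0 := fun u hu => hu.1 i hi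
  exact finrank_le_of_dropL (annSub T T A) _ h0
    (fun u hu => isAnn_restr_of_zero hu (h0 u hu))

end

end Vale.Agent.Lib.P160
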